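import Vale.Agent.P252D.Sections
import Vale.Agent.P252B.Smooth

/-!
The two divergence identities of the mass bound and the bound for the energy of
`(h - u)⁵ (det D²u)^(1/2)`.
-/

open Set MeasureTheory Metric Matrix Finset Filter

namespace Vale.Agent.P252M

open Vale.Agent.P252 (hessian)
open Vale.Agent.P252B (V pd contDiffOn_hessian contDiffOn_det contDiffOn_pd contDiffOn_adj piola
  hessian_eq)
open Vale.Agent.P252D (Sol dt)

lemma contDiff_posPart_pow {k : ℕ} (hk : 2 ≤ k) : ContDiff ℝ 1 fun t : ℝ => max t 0 ^ k := by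
  obtain ⟨m, rfl⟩ : ∃ m, k = m + 2 := ⟨k - 2, by omega⟩
  have hd : ∀ t : ℝ, HasDerivAt (fun t : ℝ => max t 0 ^ (m + 2))
      ((m + 2 : ℝ) * max t 0 ^ (m + 1)) t := by
    intro t
    rcases lt_trichotomy t 0 with ht | rfl | ht
    · rw [max_eq_right ht.le, zero_pow (by omega), mul_zero]
      exact (hasDerivAt_const t (0 : ℝ)).congr_of_eventuallyEq
        (eventuallyEq_of_mem (Iio_mem_nhds ht) fun y hy => by simp [max_eq_right (le_of_lt (show y < 0 from hy))])
    · rw [max_self, zero_pow (by omega), mul_zero, hasDerivAt_iff_isLittleO]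
      simp only [max_self, zero_pow (show m + 2 ≠ 0 by omega), sub_zero, smul_zero]
      refine Asymptotics.IsBigO.trans_isLittleO ?_
        (Asymptotics.isLittleO_pow_id (𝕜 := ℝ) (show 1 < m + 2 by omega))
      refine Asymptotics.IsBigO.of_bound 1 (Eventually.of_forall fun y => ?_)
      rw [one_mul, norm_pow, norm_pow]
      refine pow_le_pow_left₀ (norm_nonneg _) ?_ _
      simp only [Real.norm_eq_abs]
      rw [abs_of_nonneg (le_max_right _ _)]
      exact max_le (le_abs_self _) (abs_nonneg _)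
    · rw [max_eq_left ht.le]
      refine ((hasDerivAt_pow (m + 2) t).congr_of_eventuallyEq
        (eventuallyEq_of_mem (Ioi_mem_nhds ht) fun y hy => by simp [max_eq_left (le_of_lt (show (0 : ℝ) < y from hy))])).congr_deriv ?_
      push_cast
      ring
  rw [contDiff_one_iff_deriv]
  refine ⟨fun t => (hd t).differentiableAt, ?_⟩
  rw [show deriv (fun t : ℝ => max t 0 ^ (m + 2)) = fun t => (m + 2 : ℝ) * max t 0 ^ (m + 1) from
    funext fun t => (hd t).deriv]
  fun_prop

variable (P : Sol)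

lemma pd_cut {x : V 3} (hx : x ∈ P.Ω) (h : ℝ) (i : Fin 3) : pd (P.cut h) i x = -pd P.u i x := by
  have d := ((P.smooth.differentiableOn (by norm_num)) x hx).differentiableAt (P.isOpen.mem_nhds hx)
  have e : P.cut h = fun y => h - P.u y := rfl
  simp [pd, e, fderiv_const_sub]

lemma diffAt {f : V 3 → ℝ} (hf : ContDiffOn ℝ (↑(⊤ : ℕ∞)) f P.Ω) {x : V 3} (hx : x ∈ P.Ω) :
    DifferentiableAt ℝ f x :=
  ((hf.differentiableOn (by norm_num)) x hx).differentiableAt (P.isOpen.mem_nhds hx)

lemma contDiffOn_cut (h : ℝ) : ContDiffOn ℝ (↑(⊤ : ℕ∞)) (P.cut h) P.Ω :=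
  contDiffOn_const.sub P.smooth

/-- The integral over a section of a derivative of `(h - u)^k s` vanishes. -/
theorem flux {k : ℕ} (hk : 2 ≤ k) (h : ℝ) {s : V 3 → ℝ} (hs : ContDiffOn ℝ (↑(⊤ : ℕ∞)) s P.Ω)
    (i : Fin 3) : ∫ x in P.csec h, pd (fun y => P.cut h y ^ k * s y) i x = 0 := by
  set S := P.csec h with hS
  have hSc : IsCompact S := P.isCompact_csec h
  set g := P.Ω.indicator (fun y => max (P.cut h y) 0 ^ k * s y) with hg
  have hg0 : ∀ y, y ∉ S → g y = 0 := fun y hy => by
    by_cases hy' : y ∈ P.Ω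
    · have : P.cut h y ≤ 0 := by
        have : ¬ P.u y ≤ h := fun h' => hy ⟨hy', h'⟩
        simp only [Sol.cut]; linarith
      simp [hg, hy', max_eq_right this, zero_pow (show k ≠ 0 by omega)]
    · simp [hg, hy']
  have hg1 : ContDiff ℝ 1 g := by
    rw [contDiff_iff_contDiffAt]
    intro y
    by_cases hy : y ∈ P.Ω
    · have h1 : ContDiffAt ℝ 1 (fun y => max (P.cut h y) 0 ^ k * s y) y :=
        ((contDiff_posPart_pow hk).contDiffAt.comp y
          (((contDiffOn_cut P h y hy).contDiffAt (P.isOpen.mem_nhds hy)).of_le (by simp))).mul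
          (((hs y hy).contDiffAt (P.isOpen.mem_nhds hy)).of_le (by simp))
      exact h1.congr_of_eventuallyEq
        (eventuallyEq_of_mem (P.isOpen.mem_nhds hy) fun z hz => by simp [hg, hz])
    · have hy' : y ∉ S := fun h' => hy h'.1
      exact (contDiffAt_const (c := (0 : ℝ))).congr_of_eventuallyEq
        (eventuallyEq_of_mem (hSc.isClosed.isOpen_compl.mem_nhds hy') fun z hz => hg0 z hz)
  have hd0 : ∀ y, y ∉ S → pd g i y = 0 := fun y hy => by
    have e : g =ᶠ[nhds y] fun _ => (0 : ℝ) :=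
      eventuallyEq_of_mem (hSc.isClosed.isOpen_compl.mem_nhds hy) fun z hz => hg0 z hz
    simp [pd, e.fderiv_eq]
  have e : ∀ x ∈ S, pd (fun y => P.cut h y ^ k * s y) i x = pd g i x := by
    intro x hx
    rcases hx.2.eq_or_lt with heq | hlt
    · have hc : P.cut h x = 0 := by simp [Sol.cut, heq]
      have hds := diffAt P hs hx.1
      have hdc := diffAt P (contDiffOn_cut P h) hx.1
      have e1 : pd (fun y => P.cut h y ^ k * s y) i x = 0 := by
        rw [pd, fderiv_fun_mul (hdc.fun_pow k) hds, fderiv_fun_pow k hdc]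
        simp [hc, zero_pow (show k - 1 ≠ 0 by omega), zero_pow (show k ≠ 0 by omega)]
      have e3 : g =ᶠ[nhds x] fun y => max (P.cut h y) 0 ^ k * s y :=
        eventuallyEq_of_mem (P.isOpen.mem_nhds hx.1) fun z hz => by simp [hg, hz]
      obtain ⟨m, rfl⟩ : ∃ m, k = m + 2 := ⟨k - 2, by omega⟩
      have hmax : HasDerivAt (fun t : ℝ => max t 0 ^ (m + 2)) 0 (P.cut h x) := by
        have := ((contDiff_posPart_pow (k := m + 2) hk).differentiable (by norm_num)) 0
        have hz : deriv (fun t : ℝ => max t 0 ^ (m + 2)) 0 = 0 := by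
          refine IsLocalMin.deriv_eq_zero (Eventually.of_forall fun t => ?_)
          simp only [max_self, zero_pow (show m + 2 ≠ 0 by omega)]
          exact pow_nonneg (le_max_right _ _) _
        rw [hc]
        exact this.hasDerivAt.congr_deriv hz
      have e2 : HasFDerivAt (fun y => max (P.cut h y) 0 ^ (m + 2)) (0 : V 3 →L[ℝ] ℝ) x := by
        have := hmax.comp_hasFDerivAt x hdc.hasFDerivAt
        simpa [Function.comp_def] using this
      rw [e1]
      simp [pd, e3.fderiv_eq, fderiv_fun_mul e2.differentiableAt hds, e2.fderiv, hc]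
    · have hU : {z | z ∈ P.Ω ∧ P.u z < h} ∈ nhds x := (P.isOpen_sec h).mem_nhds ⟨hx.1, hlt⟩
      have : (fun y => P.cut h y ^ k * s y) =ᶠ[nhds x] g :=
        eventuallyEq_of_mem hU fun z hz => by
          have : 0 ≤ P.cut h z := sub_nonneg.2 hz.2.le
          simp [hg, hz.1, max_eq_left this]
      simp [pd, this.fderiv_eq]
  rw [setIntegral_congr_fun hSc.measurableSet e, setIntegral_eq_integral_of_forall_compl_eq_zero hd0]
  have hsupp : HasCompactSupport g := HasCompactSupport.intro hSc hg0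
  have hi : Integrable (fun x => pd g i x) :=
    ((hg1.continuous_fderiv (by norm_num)).clm_apply continuous_const).integrable_of_hasCompactSupport
      (HasCompactSupport.intro hSc hd0)
  have := integral_mul_fderiv_eq_neg_fderiv_mul_of_integrable (μ := (volume : Measure (V 3)))
    (f := fun _ => (1 : ℝ)) (g := g) (v := EuclideanSpace.single i 1)
    (by simp) (by simp only [one_mul]; exact hi)
    (by simp only [one_mul]; exact hg1.continuous.integrable_of_hasCompactSupport hsupp)
    (fun x _ => differentiableAt_const _) (fun x _ => (hg1.differentiable (by norm_num)) x)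
  simpa [pd] using this

/-- The entries of the adjugate of the Hessian. -/
noncomputable def cof (i j : Fin 3) (x : V 3) : ℝ := (hessian P.u x).adjugate i j

/-- The derivative of `log det`. -/
noncomputable def dld (i : Fin 3) (x : V 3) : ℝ := pd (dt P.u) i x / dt P.u x

lemma contDiffOn_cof (i j : Fin 3) : ContDiffOn ℝ (↑(⊤ : ℕ∞)) (cof P i j) P.Ω :=
  contDiffOn_adj P.isOpen P.smooth i j

lemma contDiffOn_dld (i : Fin 3) : ContDiffOn ℝ (↑(⊤ : ℕ∞)) (dld P i) P.Ω :=
  (contDiffOn_pd P.isOpen P.contDiffOn_dt i).div P.contDiffOn_dt fun _ hx => (P.dt_pos hx).ne'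

/-- `⟨p, q⟩` for the adjugate of the Hessian. -/
noncomputable def cdot (p q : Fin 3 → V 3 → ℝ) (x : V 3) : ℝ :=
  ∑ i, ∑ j, cof P i j x * p i x * q j x

lemma continuousOn_cdot {p q : Fin 3 → V 3 → ℝ} (hp : ∀ i, ContinuousOn (p i) P.Ω)
    (hq : ∀ i, ContinuousOn (q i) P.Ω) : ContinuousOn (cdot P p q) P.Ω :=
  continuousOn_finsetSum _ fun i _ => continuousOn_finsetSum _ fun j _ =>
    ((contDiffOn_cof P i j).continuousOn.mul (hp i)).mul (hq j)

lemma cof_comm {x : V 3} (hx : x ∈ P.Ω) (i j : Fin 3) : cof P i j x = cof P j i x := by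
  have : (hessian P.u x)ᵀ = hessian P.u x := by
    simpa [Matrix.conjTranspose_eq_transpose_of_trivial] using (P.posDef hx).isHermitian.eq
  show (hessian P.u x).adjugate i j = (hessian P.u x).adjugate j i
  conv_lhs => rw [← this, ← Matrix.adjugate_transpose]
  rfl

lemma adj_eq {x : V 3} (hx : x ∈ P.Ω) :
    (hessian P.u x).adjugate = dt P.u x • (hessian P.u x)⁻¹ := by
  rw [Matrix.inv_def, smul_smul, show dt P.u x = (hessian P.u x).det from rfl,
    Ring.mul_inverse_cancel _ (isUnit_iff_ne_zero.2 (P.posDef hx).det_pos.ne'), one_smul]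

lemma cdot_self_nonneg {x : V 3} (hx : x ∈ P.Ω) (p : Fin 3 → V 3 → ℝ) : 0 ≤ cdot P p p x := by
  have h := (P.posDef hx).inv.posSemidef.dotProduct_mulVec_nonneg fun i => p i x
  have e : cdot P p p x = dt P.u x * ((fun i => p i x) ⬝ᵥ ((hessian P.u x)⁻¹ *ᵥ fun i => p i x)) := by
    simp only [cdot, cof, adj_eq P hx, Matrix.smul_apply, smul_eq_mul, dotProduct, mulVec,
      Finset.mul_sum]
    exact Finset.sum_congr rfl fun i _ => Finset.sum_congr rfl fun j _ => by ring
  rw [e]
  exact mul_nonneg (P.dt_pos hx).le (by simpa using h)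

/-- `∑ᵢ ∂ᵢ (v^k U^{ij} q_j)`. -/
lemma div_eq (h : ℝ) (k : ℕ) {q : Fin 3 → V 3 → ℝ}
    (hq : ∀ j, ContDiffOn ℝ (↑(⊤ : ℕ∞)) (q j) P.Ω) {x : V 3} (hx : x ∈ P.Ω) :
    ∑ i, ∑ j, pd (fun y => P.cut h y ^ k * (cof P i j y * q j y)) i x
      = P.cut h x ^ k * (∑ i, ∑ j, cof P i j x * pd (q j) i x)
        - (k : ℝ) * P.cut h x ^ (k - 1) * cdot P (fun i => pd P.u i) q x := by
  have hdc := diffAt P (contDiffOn_cut P h) hx
  have e : ∀ i j, pd (fun y => P.cut h y ^ k * (cof P i j y * q j y)) i x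
      = -((k : ℝ) * P.cut h x ^ (k - 1)) * (cof P i j x * pd P.u i x * q j x)
        + P.cut h x ^ k * (pd (cof P i j) i x * q j x)
        + P.cut h x ^ k * (cof P i j x * pd (q j) i x) := by
    intro i j
    have d1 := diffAt P (contDiffOn_cof P i j) hx
    have d2 := diffAt P (hq j) hx
    have hp := pd_cut P hx h i
    simp only [pd] at hp ⊢
    rw [fderiv_fun_mul (hdc.fun_pow k) (d1.fun_mul d2), fderiv_fun_mul d1 d2, fderiv_fun_pow k hdc]
    simp only [ContinuousLinearMap.add_apply, ContinuousLinearMap.smul_apply, smul_eq_mul,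
      nsmul_eq_mul, hp]
    ring
  simp only [e, Finset.sum_add_distrib, ← Finset.mul_sum, cdot]
  have hz : ∑ i, ∑ j, pd (cof P i j) i x * q j x = 0 := by
    rw [Finset.sum_comm]
    simp only [← Finset.sum_mul]
    refine Finset.sum_eq_zero fun j _ => ?_
    rw [show (∑ i, pd (cof P i j) i x) = 0 from piola P.isOpen P.smooth (fun y hy => P.posDef hy) hx j,
      zero_mul]
  rw [hz]
  ring

lemma trace_eq {x : V 3} (hx : x ∈ P.Ω) :
    ∑ i, ∑ j, cof P i j x * pd (pd P.u j) i x = 3 * dt P.u x := by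
  have e : ∀ i j, pd (pd P.u j) i x = hessian P.u x j i := fun i j => by
    rw [← hessian_eq P.isOpen P.smooth hx i j]
    simpa using ((P.posDef hx).isHermitian.apply j i)
  have h : ((hessian P.u x).adjugate * hessian P.u x).trace = 3 * dt P.u x := by
    rw [Matrix.adjugate_mul, Matrix.trace_smul, Matrix.trace_one]
    simp [dt, mul_comm]
  simp only [e]
  simpa [Matrix.trace, Matrix.mul_apply, cof] using h

/-- The affine maximal equation for `log det`. -/
lemma trace_dld {x : V 3} (hx : x ∈ P.Ω) :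
    ∑ i, ∑ j, cof P i j x * pd (dld P j) i x = 4 / 5 * cdot P (dld P) (dld P) x := by
  set w := fun y => (hessian P.u y).det ^ (-(((3 : ℕ) : ℝ) + 1) / (((3 : ℕ) : ℝ) + 2)) with hw
  have ham := P.am x hx
  rw [show (fun y => (hessian P.u y).det ^ (-((((3 : ℕ) : ℝ) + 1) / (((3 : ℕ) : ℝ) + 2)))) = w by
    simp only [hw, neg_div]] at ham
  have hwe : w = fun y => dt P.u y ^ (-(4 / 5) : ℝ) := by
    funext y; simp only [hw, dt]; norm_num
  have hws : ContDiffOn ℝ (↑(⊤ : ℕ∞)) w P.Ω := by
    rw [hwe]; exact P.contDiffOn_dt.rpow_const_of_ne fun y hy => (P.dt_pos hy).ne'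
  have hgs : ContDiffOn ℝ (↑(⊤ : ℕ∞)) (fun y => dt P.u y ^ (4 / 5 : ℝ)) P.Ω :=
    P.contDiffOn_dt.rpow_const_of_ne fun y hy => (P.dt_pos hy).ne'
  have hdw : ∀ y ∈ P.Ω, ∀ j, pd w j y = -(4 / 5) * dt P.u y ^ (-(4 / 5) - 1 : ℝ) * pd (dt P.u) j y := by
    intro y hy j
    have := ((diffAt P P.contDiffOn_dt hy).hasFDerivAt.rpow_const (p := (-(4 / 5) : ℝ))
      (Or.inl (P.dt_pos hy).ne')).fderiv
    simp [pd, hwe, this]
  have key : ∀ i j, pd (dld P j) i x = 4 / 5 * dld P i x * dld P j x
      - 5 / 4 * dt P.u x ^ (4 / 5 : ℝ) * hessian w x i j := by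
    intro i j
    have e : dld P j =ᶠ[nhds x] fun y => -(5 / 4) * (dt P.u y ^ (4 / 5 : ℝ) * pd w j y) :=
      eventuallyEq_of_mem (P.isOpen.mem_nhds hx) fun y hy => by
        simp only [dld]
        rw [hdw y hy j]
        have h1 : dt P.u y ^ (4 / 5 : ℝ) * dt P.u y ^ (-(4 / 5) - 1 : ℝ) = (dt P.u y)⁻¹ := by
          rw [← Real.rpow_add (P.dt_pos hy), ← Real.rpow_neg_one]; norm_num
        rw [div_eq_mul_inv, ← h1]
        ring
    have hgd := ((diffAt P P.contDiffOn_dt hx).hasFDerivAt.rpow_const (p := (4 / 5 : ℝ))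
      (Or.inl (P.dt_pos hx).ne')).fderiv
    have d1 := diffAt P hgs hx
    have d2 := diffAt P (contDiffOn_pd P.isOpen hws j) hx
    have hwh : hessian w x i j = fderiv ℝ (pd w j) x (EuclideanSpace.single i 1) :=
      hessian_eq P.isOpen hws hx i j
    have hw1 := hdw x hx j
    simp only [pd] at hw1
    rw [pd, e.fderiv_eq, fderiv_const_mul (d1.fun_mul d2), fderiv_fun_mul d1 d2, hgd]
    simp only [ContinuousLinearMap.add_apply, ContinuousLinearMap.smul_apply, smul_eq_mul, hwh, hw1,
      dld, pd]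
    have h2 : dt P.u x ^ (4 / 5 - 1 : ℝ) * dt P.u x ^ (-(4 / 5) - 1 : ℝ)
        = (dt P.u x)⁻¹ * (dt P.u x)⁻¹ := by
      rw [← Real.rpow_add (P.dt_pos hx), ← Real.rpow_neg_one, ← Real.rpow_add (P.dt_pos hx)]
      norm_num
    simp only [div_eq_mul_inv] at h2 ⊢
    linear_combination (4 / 5 : ℝ) * (fderiv ℝ (dt P.u) x (EuclideanSpace.single i 1)) *
      (fderiv ℝ (dt P.u) x (EuclideanSpace.single j 1)) * h2
  simp only [key, mul_sub, Finset.sum_sub_distrib]
  have hzero : ∑ i, ∑ j, cof P i j x * (5 / 4 * dt P.u x ^ (4 / 5 : ℝ) * hessian w x i j) = 0 := by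
    have h' : ∑ i, ∑ j, cof P i j x * hessian w x i j = 0 := by
      rw [← ham]
      refine Finset.sum_congr rfl fun i _ => Finset.sum_congr rfl fun j _ => ?_
      simp [cof, adj_eq P hx, dt]
    rw [show (0 : ℝ) = 5 / 4 * dt P.u x ^ (4 / 5 : ℝ) * ∑ i, ∑ j, cof P i j x * hessian w x i j by
      rw [h', mul_zero]]
    simp only [Finset.mul_sum]
    exact Finset.sum_congr rfl fun i _ => Finset.sum_congr rfl fun j _ => by ring
  rw [hzero, sub_zero, cdot, Finset.mul_sum]
  refine Finset.sum_congr rfl fun i _ => ?_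
  rw [Finset.mul_sum]
  exact Finset.sum_congr rfl fun j _ => by ring

lemma integrableOn_csec {f : V 3 → ℝ} (hf : ContinuousOn f P.Ω) (h : ℝ) :
    IntegrableOn f (P.csec h) :=
  (hf.mono (P.csec_subset h)).integrableOn_compact (P.isCompact_csec h)

lemma integral_div (h : ℝ) {k : ℕ} (hk : 2 ≤ k) {q : Fin 3 → V 3 → ℝ}
    (hq : ∀ j, ContDiffOn ℝ (↑(⊤ : ℕ∞)) (q j) P.Ω) :
    (∫ x in P.csec h, P.cut h x ^ k * (∑ i, ∑ j, cof P i j x * pd (q j) i x)) =
      (k : ℝ) * ∫ x in P.csec h, P.cut h x ^ (k - 1) * cdot P (fun i => pd P.u i) q x := by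
  have hc := P.continuousOn_cut h
  have c1 : ContinuousOn (fun x => ∑ i, ∑ j, cof P i j x * pd (q j) i x) P.Ω :=
    continuousOn_finsetSum _ fun i _ => continuousOn_finsetSum _ fun j _ =>
      (contDiffOn_cof P i j).continuousOn.mul (contDiffOn_pd P.isOpen (hq j) i).continuousOn
  have c2 : ContinuousOn (cdot P (fun i => pd P.u i) q) P.Ω :=
    continuousOn_cdot P (fun i => (contDiffOn_pd P.isOpen P.smooth i).continuousOn)
      fun i => (hq i).continuousOn
  have hs : ∀ i j, ContDiffOn ℝ (↑(⊤ : ℕ∞)) (fun y => cof P i j y * q j y) P.Ω := fun i j =>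
    (contDiffOn_cof P i j).mul (hq j)
  have hz : (∫ x in P.csec h, ∑ i, ∑ j, pd (fun y => P.cut h y ^ k * (cof P i j y * q j y)) i x) = 0 := by
    have hi : ∀ i j, IntegrableOn (pd (fun y => P.cut h y ^ k * (cof P i j y * q j y)) i) (P.csec h) :=
      fun i j => integrableOn_csec P
        (contDiffOn_pd P.isOpen (((contDiffOn_cut P h).pow k).mul (hs i j)) i).continuousOn h
    rw [integral_finsetSum _ fun i _ => MeasureTheory.integrable_finsetSum _ fun j _ => hi i j]
    refine Finset.sum_eq_zero fun i _ => ?_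
    rw [integral_finsetSum _ fun j _ => hi i j]
    exact Finset.sum_eq_zero fun j _ => flux P hk h (hs i j) i
  rw [setIntegral_congr_fun (P.isCompact_csec h).measurableSet
      fun x hx => div_eq P h k hq hx.1,
    integral_sub (integrableOn_csec P (f := fun x => P.cut h x ^ k *
        ∑ i, ∑ j, cof P i j x * pd (q j) i x) ((hc.pow k).mul c1) h)
      (integrableOn_csec P (f := fun x => (k : ℝ) * P.cut h x ^ (k - 1) *
        cdot P (fun i => pd P.u i) q x) ((continuousOn_const.mul (hc.pow (k - 1))).mul c2) h)] at hz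
  rw [sub_eq_zero] at hz
  rw [hz, ← integral_const_mul]
  exact setIntegral_congr_fun (P.isCompact_csec h).measurableSet fun x _ => by ring

/-- The function whose variance along rays is estimated. -/
noncomputable def tst (h : ℝ) (x : V 3) : ℝ := P.cut h x ^ 5 * Real.sqrt (dt P.u x)

/-- `v⁸ |d (v⁵ √det)|²`. -/
noncomputable def energy (h : ℝ) (x : V 3) : ℝ :=
  P.cut h x ^ 8 * (cdot P (fun i => pd (tst P h) i) (fun i => pd (tst P h) i) x / dt P.u x)

lemma contDiffOn_tst (h : ℝ) : ContDiffOn ℝ (↑(⊤ : ℕ∞)) (tst P h) P.Ω :=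
  ((contDiffOn_cut P h).pow 5).mul (P.contDiffOn_dt.sqrt fun _ hx => (P.dt_pos hx).ne')

lemma continuousOn_energy (h : ℝ) : ContinuousOn (energy P h) P.Ω :=
  ((P.continuousOn_cut h).pow 8).mul
    ((continuousOn_cdot P (fun i => (contDiffOn_pd P.isOpen (contDiffOn_tst P h) i).continuousOn)
      fun i => (contDiffOn_pd P.isOpen (contDiffOn_tst P h) i).continuousOn).div
      P.contDiffOn_dt.continuousOn fun _ hx => (P.dt_pos hx).ne')

lemma cdot_smul_sub {x : V 3} (hx : x ∈ P.Ω) (p q : Fin 3 → V 3 → ℝ) (s t : ℝ) :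
    ∑ i, ∑ j, cof P i j x * (s * p i x + t * q i x) * (s * p j x + t * q j x)
      = s ^ 2 * cdot P p p x + 2 * s * t * cdot P p q x + t ^ 2 * cdot P q q x := by
  have hs : cdot P q p x = cdot P p q x := by
    simp only [cdot]
    rw [Finset.sum_comm]
    exact Finset.sum_congr rfl fun i _ => Finset.sum_congr rfl fun j _ => by
      rw [cof_comm P hx j i]; ring
  calc _ = ∑ i, ∑ j, (s ^ 2 * (cof P i j x * p i x * p j x) + s * t * (cof P i j x * p i x * q j x)
        + s * t * (cof P i j x * q i x * p j x) + t ^ 2 * (cof P i j x * q i x * q j x)) :=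
        Finset.sum_congr rfl fun i _ => Finset.sum_congr rfl fun j _ => by ring
    _ = _ := by
        simp only [Finset.sum_add_distrib, ← Finset.mul_sum]
        simp only [cdot] at hs ⊢
        rw [hs]; ring

lemma energy_eq (h : ℝ) {x : V 3} (hx : x ∈ P.Ω) :
    energy P h x = 25 * (P.cut h x ^ 16 * cdot P (fun i => pd P.u i) (fun i => pd P.u i) x)
      - 5 * (P.cut h x ^ 17 * cdot P (fun i => pd P.u i) (dld P) x)
      + 1 / 4 * (P.cut h x ^ 18 * cdot P (dld P) (dld P) x) := by
  have hD := P.dt_pos hx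
  set D := dt P.u x with hDdef
  set v := P.cut h x with hv
  set r := Real.sqrt D with hr
  have hr0 : 0 < r := Real.sqrt_pos.2 hD
  have hrr : r * r = D := Real.mul_self_sqrt hD.le
  have e : ∀ i, pd (tst P h) i x
      = (-5 * v ^ 4 * r) * pd P.u i x + (v ^ 5 * r / 2) * dld P i x := by
    intro i
    have d1 := diffAt P (contDiffOn_cut P h) hx
    have d2 := diffAt P P.contDiffOn_dt hx
    have hs : fderiv ℝ (fun y => Real.sqrt (dt P.u y)) x = (1 / (2 * r)) • fderiv ℝ (dt P.u) x := by
      simpa [hr, hDdef] using (d2.hasFDerivAt.sqrt hD.ne').fderiv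
    have hp := pd_cut P hx h i
    have ht : tst P h = fun y => P.cut h y ^ 5 * Real.sqrt (dt P.u y) := rfl
    simp only [pd, dld] at hp ⊢
    rw [ht, fderiv_fun_mul (d1.fun_pow 5) (d2.sqrt hD.ne'), hs, fderiv_fun_pow 5 d1]
    simp only [ContinuousLinearMap.add_apply, ContinuousLinearMap.smul_apply, smul_eq_mul,
      nsmul_eq_mul, hp, ← hv, ← hDdef, ← hr]
    rw [← hrr]
    field_simp
    push_cast
    ring
  have hc : cdot P (fun i => pd (tst P h) i) (fun i => pd (tst P h) i) x =
      (-5 * v ^ 4 * r) ^ 2 * cdot P (fun i => pd P.u i) (fun i => pd P.u i) x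
        + 2 * (-5 * v ^ 4 * r) * (v ^ 5 * r / 2) * cdot P (fun i => pd P.u i) (dld P) x
        + (v ^ 5 * r / 2) ^ 2 * cdot P (dld P) (dld P) x := by
    rw [← cdot_smul_sub P hx]
    simp only [cdot, e]
  rw [energy, hc, ← hv, ← hDdef, ← hrr]
  field_simp
  ring

/-- The energy is at most `1875/272` times the mass. -/
theorem energy_le (h : ℝ) :
    (∫ x in P.csec h, energy P h x) ≤ 1875 / 272 * ∫ x in P.csec h, P.cut h x ^ 17 * dt P.u x := by
  set a := fun x => P.cut h x ^ 16 * cdot P (fun i => pd P.u i) (fun i => pd P.u i) x with ha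
  set b := fun x => P.cut h x ^ 17 * cdot P (fun i => pd P.u i) (dld P) x with hb
  set c := fun x => P.cut h x ^ 18 * cdot P (dld P) (dld P) x with hc
  have cu : ∀ i, ContinuousOn (pd P.u i) P.Ω := fun i =>
    (contDiffOn_pd P.isOpen P.smooth i).continuousOn
  have cq : ∀ i, ContinuousOn (dld P i) P.Ω := fun i => (contDiffOn_dld P i).continuousOn
  have cv := P.continuousOn_cut h
  have ia : IntegrableOn a (P.csec h) :=
    integrableOn_csec P ((cv.pow 16).mul (continuousOn_cdot P cu cu)) h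
  have ib : IntegrableOn b (P.csec h) :=
    integrableOn_csec P ((cv.pow 17).mul (continuousOn_cdot P cu cq)) h
  have ic : IntegrableOn c (P.csec h) :=
    integrableOn_csec P ((cv.pow 18).mul (continuousOn_cdot P cq cq)) h
  have hms := (P.isCompact_csec h).measurableSet
  set J := ∫ x in P.csec h, P.cut h x ^ 17 * dt P.u x with hJ
  have h1 : 3 * J = 17 * ∫ x in P.csec h, a x := by
    have := integral_div P h (k := 17) (by norm_num) fun j => contDiffOn_pd P.isOpen P.smooth j
    rw [setIntegral_congr_fun (g := fun x => 3 * (P.cut h x ^ 17 * dt P.u x)) hms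
      (fun x hx => by simp only []; rw [trace_eq P hx.1]; ring), integral_const_mul] at this
    simpa [ha, hJ] using this
  have h2 : 4 / 5 * (∫ x in P.csec h, c x) = 18 * ∫ x in P.csec h, b x := by
    have := integral_div P h (k := 18) (by norm_num) fun j => contDiffOn_dld P j
    rw [setIntegral_congr_fun (g := fun x => 4 / 5 * c x) hms
      (fun x hx => by simp only [hc]; rw [trace_dld P hx.1]; ring), integral_const_mul] at this
    simpa [hb] using this
  have h3 : 0 ≤ (45 / 2) ^ 2 * (∫ x in P.csec h, a x) - 45 * (∫ x in P.csec h, b x)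
      + ∫ x in P.csec h, c x := by
    rw [← integral_const_mul, ← integral_const_mul, ← integral_sub (ia.const_mul _) (ib.const_mul _),
      ← integral_add ((ia.const_mul _).sub' (ib.const_mul _)) ic]
    refine setIntegral_nonneg hms fun x hx => ?_
    have h0 : 0 ≤ P.cut h x := sub_nonneg.2 hx.2
    have hn := cdot_self_nonneg P hx.1
      (fun i y => (45 / 2) * pd P.u i y + (-P.cut h x) * dld P i y)
    have he := cdot_smul_sub P hx.1 (fun i => pd P.u i) (dld P) (45 / 2) (-P.cut h x)
    simp only [cdot] at hn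
    rw [he] at hn
    calc (0 : ℝ) ≤ P.cut h x ^ 16 * ((45 / 2) ^ 2 * cdot P (fun i => pd P.u i) (fun i => pd P.u i) x
            + 2 * (45 / 2) * (-P.cut h x) * cdot P (fun i => pd P.u i) (dld P) x
            + (-P.cut h x) ^ 2 * cdot P (dld P) (dld P) x) := mul_nonneg (by positivity) hn
      _ = _ := by simp only [ha, hb, hc]; ring
  rw [setIntegral_congr_fun (g := fun x => 25 * a x - 5 * b x + 1 / 4 * c x) hms
    (fun x hx => energy_eq P h hx.1),
    integral_add ((ia.const_mul _).sub' (ib.const_mul _)) (ic.const_mul _),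
    integral_sub (ia.const_mul _) (ib.const_mul _), integral_const_mul, integral_const_mul,
    integral_const_mul]
  linarith

end Vale.Agent.P252M
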