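import Mathlib

/-!
A weighted Poincaré inequality on an interval (Brascamp–Lieb in one dimension).
-/

open Set MeasureTheory intervalIntegral

namespace Vale.Agent.P252M

variable {a b : ℝ} {w φ₁ φ₂ f f₁ : ℝ → ℝ}

/-- If `w = exp (-φ)` with `φ'' = φ₂ > 0` on `[a, b]`, the variance of `f` for the weight `w`
is at most `∫ w f'² / φ''`. -/
theorem poincare (hab : a < b) (hw : ∀ r ∈ Icc a b, 0 < w r)
    (hw' : ∀ r ∈ Icc a b, HasDerivAt w (-(φ₁ r) * w r) r)
    (hφ : ∀ r ∈ Icc a b, HasDerivAt φ₁ (φ₂ r) r) (hφpos : ∀ r ∈ Icc a b, 0 < φ₂ r)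
    (hφc : ContinuousOn φ₂ (Icc a b)) (hf : ∀ r ∈ Icc a b, HasDerivAt f (f₁ r) r)
    (hfc : ContinuousOn f₁ (Icc a b)) :
    (∫ r in a..b, w r * f r ^ 2) - (∫ r in a..b, w r * f r) ^ 2 / (∫ r in a..b, w r)
      ≤ ∫ r in a..b, w r * f₁ r ^ 2 / φ₂ r := by
  have cw : ContinuousOn w (Icc a b) := fun r hr => (hw' r hr).continuousAt.continuousWithinAt
  have cf : ContinuousOn f (Icc a b) := fun r hr => (hf r hr).continuousAt.continuousWithinAt
  have cφ : ContinuousOn φ₁ (Icc a b) := fun r hr => (hφ r hr).continuousAt.continuousWithinAt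
  have int : ∀ {F : ℝ → ℝ}, ContinuousOn F (Icc a b) → IntervalIntegrable F volume a b :=
    fun hF => hF.intervalIntegrable_of_Icc hab.le
  set Z := ∫ r in a..b, w r with hZ
  have hZpos : 0 < Z := intervalIntegral_pos_of_pos_on (int cw)
    (fun r hr => hw r (Ioo_subset_Icc_self hr)) hab
  set c := (∫ r in a..b, w r * f r) / Z with hc
  set g := fun r => f r - c with hg
  have cg : ContinuousOn g (Icc a b) := cf.sub continuousOn_const
  set G := fun r => ∫ t in a..r, w t * g t with hG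
  have cwg : ContinuousOn (fun r => w r * g r) (Icc a b) := cw.mul cg
  have cG : ContinuousOn G (Icc a b) := by
    have := continuousOn_primitive_interval (μ := volume) (a := a) (b := b)
      (f := fun r => w r * g r) (by rw [uIcc_of_le hab.le]; exact cwg.integrableOn_Icc)
    rwa [uIcc_of_le hab.le] at this
  have dG : ∀ r ∈ Ioo a b, HasDerivAt G (w r * g r) r := fun r hr =>
    integral_hasDerivAt_right
      ((cwg.mono (Icc_subset_Icc le_rfl hr.2.le)).intervalIntegrable_of_Icc hr.1.le)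
      ((cwg.mono Ioo_subset_Icc_self).stronglyMeasurableAtFilter isOpen_Ioo r hr)
      ((cwg r (Ioo_subset_Icc_self hr)).continuousAt (Icc_mem_nhds hr.1 hr.2))
  have hGa : G a = 0 := integral_same
  have hGb : G b = 0 := by
    simp only [hG, hg, mul_sub]
    rw [intervalIntegral.integral_sub (f := fun r => w r * f r) (g := fun r => w r * c)
      (int (cw.mul cf)) (int (cw.mul continuousOn_const)),
      intervalIntegral.integral_mul_const, ← hZ, hc, mul_div_cancel₀ _ hZpos.ne', sub_self]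
  set Ψ := fun r => φ₁ r * G r ^ 2 / w r + 2 * g r * G r with hΨ
  set Ψ' := fun r => φ₂ r * G r ^ 2 / w r + 2 * φ₁ r * g r * G r + φ₁ r ^ 2 * G r ^ 2 / w r
    + 2 * f₁ r * G r + 2 * w r * g r ^ 2 with hΨ'
  have hne : ∀ r ∈ Icc a b, w r ≠ 0 := fun r hr => (hw r hr).ne'
  have dΨ : ∀ r ∈ Ioo a b, HasDerivAt Ψ (Ψ' r) r := by
    intro r hr
    have hr' := Ioo_subset_Icc_self hr
    have h := (((hφ r hr').mul ((dG r hr).pow 2)).div (hw' r hr') (hne r hr')).add
      ((((hf r hr').sub_const c).const_mul 2).mul (dG r hr))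
    refine h.congr_deriv ?_
    simp only [hΨ', hg, Pi.mul_apply, Pi.pow_apply]
    have := hne r hr'
    field_simp
    ring
  have cΨ : ContinuousOn Ψ (Icc a b) :=
    ((cφ.mul (cG.pow 2)).div cw hne).add ((continuousOn_const.mul cg).mul cG)
  have cΨ' : ContinuousOn Ψ' (Icc a b) :=
    (((((hφc.mul (cG.pow 2)).div cw hne).add (((continuousOn_const.mul cφ).mul cg).mul cG)).add
      (((cφ.pow 2).mul (cG.pow 2)).div cw hne)).add ((continuousOn_const.mul hfc).mul cG)).add
      ((continuousOn_const.mul cw).mul (cg.pow 2))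
  have hzero : ∫ r in a..b, Ψ' r = 0 := by
    rw [integral_eq_sub_of_hasDerivAt_of_le hab.le cΨ dΨ (int cΨ')]
    simp [hΨ, hGa, hGb]
  have cA : ContinuousOn (fun r => w r * f₁ r ^ 2 / φ₂ r) (Icc a b) :=
    (cw.mul (hfc.pow 2)).div hφc fun r hr => (hφpos r hr).ne'
  have hle : ∫ r in a..b, w r * g r ^ 2 ≤ ∫ r in a..b, (w r * f₁ r ^ 2 / φ₂ r + Ψ' r) := by
    refine integral_mono_on hab.le (int (cw.mul (cg.pow 2))) (int (cA.add cΨ')) fun r hr => ?_
    have h1 := hw r hr
    have h2 := hφpos r hr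
    have e : w r * f₁ r ^ 2 / φ₂ r + Ψ' r - w r * g r ^ 2
        = (w r * f₁ r + φ₂ r * G r) ^ 2 / (w r * φ₂ r) + (w r * g r + φ₁ r * G r) ^ 2 / w r := by
      simp only [hΨ']
      field_simp
      ring
    have : 0 ≤ (w r * f₁ r + φ₂ r * G r) ^ 2 / (w r * φ₂ r)
        + (w r * g r + φ₁ r * G r) ^ 2 / w r := by positivity
    linarith
  rw [intervalIntegral.integral_add (int cA) (int cΨ'), hzero, add_zero] at hle
  refine le_trans (le_of_eq ?_) hle
  have e : (fun r => w r * g r ^ 2)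
      = fun r => w r * f r ^ 2 - 2 * c * (w r * f r) + c ^ 2 * w r := by
    funext r; simp only [hg]; ring
  rw [e, intervalIntegral.integral_add (f := fun r => w r * f r ^ 2 - 2 * c * (w r * f r))
      (g := fun r => c ^ 2 * w r)
      ((int (cw.mul (cf.pow 2))).sub ((int (cw.mul cf)).const_mul _)) ((int cw).const_mul _),
    intervalIntegral.integral_sub (f := fun r => w r * f r ^ 2) (g := fun r => 2 * c * (w r * f r))
      (int (cw.mul (cf.pow 2))) ((int (cw.mul cf)).const_mul _),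
    intervalIntegral.integral_const_mul, intervalIntegral.integral_const_mul, ← hZ, hc]
  field_simp
  ring

end Vale.Agent.P252M
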