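import Mathlib

/-!
Integration in polar coordinates about a point of `ℝ³`.
-/

open Set MeasureTheory Metric Measure

namespace Vale.Agent.P252M

/-- The unit sphere. -/
abbrev S2 := sphere (0 : EuclideanSpace ℝ (Fin 3)) 1

/-- The surface measure. -/
noncomputable abbrev σ₂ : Measure S2 := (volume : Measure (EuclideanSpace ℝ (Fin 3))).toSphere

/-- The integral of `G` along the ray from `c` in direction `θ`, with weight `r²`. -/
noncomputable def ray (c : EuclideanSpace ℝ (Fin 3)) (G : EuclideanSpace ℝ (Fin 3) → ℝ)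
    (θ : S2) : ℝ :=
  ∫ r in Ioi (0 : ℝ), r ^ 2 * G (c + r • (θ : EuclideanSpace ℝ (Fin 3)))

theorem polar (c : EuclideanSpace ℝ (Fin 3)) {G : EuclideanSpace ℝ (Fin 3) → ℝ}
    (hG : Integrable G) : Integrable (ray c G) σ₂ ∧ (∫ θ, ray c G θ ∂σ₂) = ∫ x, G x := by
  let E := EuclideanSpace ℝ (Fin 3)
  set F := fun x : E => G (c + x) with hF
  have hFi : Integrable F := hG.comp_add_left c
  have hmp : MeasurePreserving (homeomorphUnitSphereProd E) ((volume : Measure E).comap (↑))
      (σ₂.prod (volumeIoiPow 2)) := by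
    have := (volume : Measure E).measurePreserving_homeomorphUnitSphereProd
    have hd : Module.finrank ℝ E - 1 = 2 := by simp [E]
    rw [hd] at this
    exact this
  set P : S2 × Ioi (0 : ℝ) → ℝ := fun p => F (p.2.1 • (p.1 : E)) with hP
  have hPe : ∀ x : ({(0 : E)}ᶜ : Set E), P (homeomorphUnitSphereProd E x) = F x.1 := by
    intro x
    simp only [hP, homeomorphUnitSphereProd_apply_snd_coe, homeomorphUnitSphereProd_apply_fst_coe]
    rw [smul_smul, mul_inv_cancel₀ (norm_ne_zero_iff.2 x.2), one_smul]
  have h0 : Integrable (fun x : ({(0 : E)}ᶜ : Set E) => F x.1) ((volume : Measure E).comap (↑)) :=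
    (integrableOn_iff_comap_subtypeVal (measurableSet_singleton _).compl).1 hFi.integrableOn
  have hPi : Integrable P (σ₂.prod (volumeIoiPow 2)) := by
    rw [← hmp.integrable_comp_emb (Homeomorph.measurableEmbedding _)]
    exact h0.congr (Filter.Eventually.of_forall fun x => (hPe x).symm)
  have hray : ∀ θ : S2, (∫ r, P (θ, r) ∂(volumeIoiPow 2)) = ray c G θ := by
    intro θ
    simp only [volumeIoiPow, ENNReal.ofReal, ray]
    rw [integral_withDensity_eq_integral_smul,
      integral_subtype_comap measurableSet_Ioi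
        fun a : ℝ => Real.toNNReal (a ^ 2) • F (a • (θ : E))]
    · refine setIntegral_congr_fun measurableSet_Ioi fun r hr => ?_
      simp only [hF, NNReal.smul_def, smul_eq_mul, Real.coe_toNNReal _ (sq_nonneg r)]
    · exact (measurable_subtype_coe.pow_const _).real_toNNReal
  refine ⟨hPi.integral_prod_left.congr (Filter.Eventually.of_forall hray), ?_⟩
  calc (∫ θ, ray c G θ ∂σ₂) = ∫ θ, (∫ r, P (θ, r) ∂(volumeIoiPow 2)) ∂σ₂ := by simp only [hray]
    _ = ∫ p, P p ∂(σ₂.prod (volumeIoiPow 2)) := (integral_prod P hPi).symm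
    _ = ∫ x : ({(0 : E)}ᶜ : Set E), P (homeomorphUnitSphereProd E x) ∂((volume : Measure E).comap (↑)) :=
        (hmp.integral_comp (Homeomorph.measurableEmbedding _) P).symm
    _ = ∫ x : ({(0 : E)}ᶜ : Set E), F x.1 ∂((volume : Measure E).comap (↑)) := by simp only [hPe]
    _ = ∫ x, F x := by
        rw [integral_subtype_comap (measurableSet_singleton _).compl F, restrict_compl_singleton]
    _ = ∫ x, G x := integral_add_left_eq_self G c

end Vale.Agent.P252M
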