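import Vale.Agent.P252D.Geom
import Vale.Agent.P252M.Identities
import Vale.Agent.P252M.OneDim
import Vale.Agent.P252M.Polar

/-!
The radial half of the mass bound: the mass of a section is carried by a shrunk section.
-/

open Set MeasureTheory Metric Matrix Finset Filter Topology

namespace Vale.Agent.P252M

open Vale.Agent.P252 (hessian)
open Vale.Agent.P252B (V pd fderiv_apply_sum convex_comb_le vec_eq_sum contDiffOn_pd)
open Vale.Agent.P252D (Sol dt)

lemma sq_integral_mul_le {a b : ℝ} (hab : a ≤ b) {w f : ℝ → ℝ} (hw : ContinuousOn w (Icc a b))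
    (hf : ContinuousOn f (Icc a b)) (h0 : ∀ r ∈ Icc a b, 0 ≤ w r) :
    (∫ r in a..b, w r * f r) ^ 2 ≤ (∫ r in a..b, w r) * ∫ r in a..b, w r * f r ^ 2 := by
  have int : ∀ {F : ℝ → ℝ}, ContinuousOn F (Icc a b) → IntervalIntegrable F volume a b :=
    fun hF => hF.intervalIntegrable_of_Icc hab
  have key : ∀ s : ℝ, 0 ≤ (∫ r in a..b, w r) * (s * s) + (-2 * ∫ r in a..b, w r * f r) * s
      + ∫ r in a..b, w r * f r ^ 2 := by
    intro s
    have h := intervalIntegral.integral_nonneg hab (f := fun r => w r * (f r - s) ^ 2) (μ := volume)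
      fun r hr => mul_nonneg (h0 r hr) (sq_nonneg _)
    rw [show (fun r => w r * (f r - s) ^ 2) = fun r => w r * f r ^ 2 - 2 * s * (w r * f r)
        + s * s * w r from funext fun r => by ring,
      intervalIntegral.integral_add (f := fun r => w r * f r ^ 2 - 2 * s * (w r * f r))
        (g := fun r => s * s * w r) ((int (hw.mul (hf.pow 2))).sub ((int (hw.mul hf)).const_mul _))
        ((int hw).const_mul _),
      intervalIntegral.integral_sub (f := fun r => w r * f r ^ 2) (g := fun r => 2 * s * (w r * f r))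
        (int (hw.mul (hf.pow 2))) ((int (hw.mul hf)).const_mul _),
      intervalIntegral.integral_const_mul, intervalIntegral.integral_const_mul] at h
    linarith
  have := discrim_le_zero key
  simp only [discrim] at this
  linarith

variable (P : Sol)

/-- Cauchy–Schwarz for the Hessian and its inverse. -/
lemma sq_apply_le {x : V 3} (hx : x ∈ P.Ω) (g : V 3 → ℝ) (d : V 3) :
    (fderiv ℝ g x d) ^ 2 ≤ fderiv ℝ (fderiv ℝ P.u) x d d *
      (cdot P (fun i => pd g i) (fun i => pd g i) x / dt P.u x) := by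
  set H := hessian P.u x with hH
  set p : Fin 3 → ℝ := fun i => pd g i x with hp
  set v : Fin 3 → ℝ := WithLp.ofLp d with hv
  have hu : IsUnit H.det := isUnit_iff_ne_zero.2 (P.posDef hx).det_pos.ne'
  have e1 : fderiv ℝ g x d = v ⬝ᵥ p := fderiv_apply_sum g x d
  have e2 : fderiv ℝ (fderiv ℝ P.u) x d d = v ⬝ᵥ (H *ᵥ v) := by
    conv_lhs => rw [vec_eq_sum d]
    simp [map_sum, hH, hessian, dotProduct, mulVec, Finset.mul_sum, hv]
    refine Finset.sum_comm.trans (Finset.sum_congr rfl fun i _ => Finset.sum_congr rfl fun j _ => ?_)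
    ring
  have e3 : cdot P (fun i => pd g i) (fun i => pd g i) x / dt P.u x = p ⬝ᵥ (H⁻¹ *ᵥ p) := by
    rw [div_eq_iff (P.dt_pos hx).ne']
    simp only [cdot, cof, adj_eq P hx, Matrix.smul_apply, smul_eq_mul, dotProduct, mulVec,
      Finset.mul_sum, Finset.sum_mul, hp, hH]
    exact Finset.sum_congr rfl fun i _ => Finset.sum_congr rfl fun j _ => by ring
  have hsym : Hᵀ = H := by
    simpa [Matrix.conjTranspose_eq_transpose_of_trivial] using (P.posDef hx).isHermitian.eq
  have key : ∀ s : ℝ, 0 ≤ p ⬝ᵥ (H⁻¹ *ᵥ p) * (s * s) + (-2 * (v ⬝ᵥ p)) * s + v ⬝ᵥ (H *ᵥ v) := by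
    intro s
    have h := (P.posDef hx).posSemidef.dotProduct_mulVec_nonneg (v - s • (H⁻¹ *ᵥ p))
    have h1 : H *ᵥ (H⁻¹ *ᵥ p) = p := by
      rw [Matrix.mulVec_mulVec, Matrix.mul_nonsing_inv _ hu, Matrix.one_mulVec]
    have h2 : (H⁻¹ *ᵥ p) ⬝ᵥ (H *ᵥ v) = p ⬝ᵥ v := by
      rw [dotProduct_mulVec, ← Matrix.mulVec_transpose, hsym, h1]
    simp only [star_trivial, ← hH, Matrix.mulVec_sub, Matrix.mulVec_smul, h1, sub_dotProduct,
      dotProduct_sub, smul_dotProduct, dotProduct_smul, h2, smul_eq_mul] at h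
    rw [dotProduct_comm p v, dotProduct_comm (H⁻¹ *ᵥ p) p] at h
    linarith
  have := discrim_le_zero key
  simp only [discrim] at this
  rw [e1, e2, e3]
  linarith

/-- The mass density. -/
noncomputable def mass (h : ℝ) (x : V 3) : ℝ := P.cut h x ^ 17 * dt P.u x

lemma continuousOn_mass (h : ℝ) : ContinuousOn (mass P h) P.Ω :=
  ((P.continuousOn_cut h).pow 17).mul P.contDiffOn_dt.continuousOn

/-- The inequality along one ray. -/
lemma ray_le {h : ℝ} (hh : 0 < h) {c : V 3} (hc : c ∈ P.sec h) (huc : P.u c ≤ h / 2) {δ : ℝ}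
    (h0 : 0 < δ) (h1 : δ ≤ 1 / 4) (θ : S2) :
    (1 - 2 * (64 * 4 ^ 7 * δ)) * ray c ((P.csec h).indicator (mass P h)) θ ≤
      1 / 7 * ray c ((P.csec h).indicator (energy P h)) θ
        + 2 * ray c ((P.inner h c δ).indicator (mass P h)) θ := by
  set d : V 3 := (θ : V 3) with hd
  have hdn : ‖d‖ = 1 := norm_eq_of_mem_sphere θ
  set γ := fun r : ℝ => c + r • d with hγ
  have hγc : Continuous γ := by fun_prop
  have hγ' : ∀ r, HasDerivAt γ d r := fun r =>
    (((hasDerivAt_id r).smul_const d).const_add c).congr_deriv (one_smul ℝ d)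
  set T := {r : ℝ | 0 ≤ r ∧ γ r ∈ P.csec h} with hT
  have hTc : IsClosed T := isClosed_Ici.inter ((P.isCompact_csec h).isClosed.preimage hγc)
  obtain ⟨C, hC⟩ := (P.isCompact_csec h).isBounded.subset_closedBall c
  have hTb : T ⊆ Icc 0 C := fun r hr => by
    refine ⟨hr.1, ?_⟩
    have := hC hr.2
    rw [mem_closedBall, dist_eq_norm] at this
    simpa [hγ, norm_smul, hdn, abs_of_nonneg hr.1] using this
  have hTcpt : IsCompact T := isCompact_Icc.of_isClosed_subset hTc hTb
  have h0T : (0 : ℝ) ∈ T := ⟨le_rfl, by simpa [hγ] using P.sec_subset_csec h hc⟩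
  set R := sSup T with hR
  have hRT : R ∈ T := hTcpt.sSup_mem ⟨0, h0T⟩
  have hle : ∀ r, 0 ≤ r → γ r ∈ P.csec h → r ≤ R := fun r hr hr' =>
    le_csSup hTcpt.bddAbove ⟨hr, hr'⟩
  have hR0 : 0 < R := by
    obtain ⟨e, he, hball⟩ := Metric.isOpen_iff.1 (P.isOpen_sec h) c hc
    refine lt_of_lt_of_le (half_pos he) (hle _ (by linarith) (P.sec_subset_csec h (hball ?_)))
    rw [mem_ball, dist_eq_norm]
    rw [hγ]
    simp only [add_sub_cancel_left, norm_smul, hdn, mul_one, Real.norm_eq_abs,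
      abs_of_pos (half_pos he)]
    linarith
  have hcomb : ∀ r ∈ Icc 0 R, γ r ∈ P.Ω ∧ P.u (γ r) ≤ (1 - r / R) * P.u c + r / R * h := by
    intro r hr
    have e : γ r = (1 - r / R) • c + (r / R) • γ R := by
      simp only [hγ, smul_add, smul_smul, div_mul_cancel₀ _ hR0.ne', ← add_assoc, ← add_smul,
        sub_add_cancel, one_smul]
    have ha : 0 ≤ 1 - r / R := by rw [sub_nonneg, div_le_one hR0]; exact hr.2
    have hb : 0 ≤ r / R := div_nonneg hr.1 hR0.le
    rw [e]
    exact ⟨P.convex hc.1 hRT.2.1 ha hb (by ring),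
      (convex_comb_le P.adm hc.1 hRT.2.1 ha hb (by ring)).trans
        (add_le_add le_rfl (mul_le_mul_of_nonneg_left hRT.2.2 hb))⟩
  have hmem : ∀ r ∈ Icc 0 R, γ r ∈ P.csec h := fun r hr => by
    obtain ⟨h2, h3⟩ := hcomb r hr
    refine ⟨h2, h3.trans ?_⟩
    have := mul_le_mul_of_nonneg_left hc.2.le (sub_nonneg.2 ((div_le_one hR0).2 hr.2))
    linarith
  have hsec : ∀ r ∈ Ico 0 R, γ r ∈ P.sec h := fun r hr => by
    obtain ⟨h2, h3⟩ := hcomb r (Ico_subset_Icc_self hr)
    refine ⟨h2, h3.trans_lt ?_⟩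
    have := mul_lt_mul_of_pos_left hc.2 (sub_pos.2 ((div_lt_one hR0).2 hr.2))
    linarith
  have hV : ∀ r ∈ Icc 0 R, (1 - r / R) * (h / 2) ≤ P.cut h (γ r) := fun r hr => by
    obtain ⟨-, h3⟩ := hcomb r hr
    have := mul_le_mul_of_nonneg_left huc (sub_nonneg.2 ((div_le_one hR0).2 hr.2))
    simp only [Sol.cut]; linarith
  have hmaps : MapsTo γ (Icc 0 R) P.Ω := fun r hr => (hmem r hr).1
  -- the three integrals
  have rayeq : ∀ (G : V 3 → ℝ) (A : Set (V 3)) (ρ : ℝ), 0 ≤ ρ →
      (∀ r, 0 < r → r < ρ → γ r ∈ A) → (∀ r, ρ < r → γ r ∉ A) →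
      ray c (A.indicator G) θ = ∫ r in 0..ρ, r ^ 2 * G (γ r) := by
    intro G A ρ hρ hin hout
    have e : ∀ᵐ r : ℝ, r ∈ Ioi (0 : ℝ) →
        r ^ 2 * A.indicator G (γ r) = (Ioc 0 ρ).indicator (fun r => r ^ 2 * G (γ r)) r := by
      filter_upwards [Measure.ae_ne volume ρ] with r hr hr0
      rcases lt_or_gt_of_ne hr with hl | hl
      · rw [Set.indicator_of_mem (hin r hr0 hl) G,
          Set.indicator_of_mem (show r ∈ Ioc 0 ρ from ⟨hr0, hl.le⟩) (fun r => r ^ 2 * G (γ r))]
      · rw [Set.indicator_of_notMem (hout r hl),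
          Set.indicator_of_notMem (fun h' : r ∈ Ioc 0 ρ => absurd h'.2 (not_le.2 hl)), mul_zero]
    rw [ray, setIntegral_congr_ae measurableSet_Ioi e, setIntegral_indicator measurableSet_Ioc,
      Set.inter_eq_right.2 Set.Ioc_subset_Ioi_self, intervalIntegral.integral_of_le hρ]
  have hout : ∀ r, R < r → γ r ∉ P.csec h := fun r hr hr' =>
    absurd (hle r (hR0.le.trans hr.le) hr') (not_le.2 hr)
  have hδ1 : 0 < 1 - δ := by linarith
  set ρ := (1 - δ) * R with hρ
  have hρ0 : 0 < ρ := mul_pos hδ1 hR0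
  have hρR : ρ < R := by rw [hρ]; nlinarith
  have hinner : ∀ r, γ r ∈ P.inner h c δ ↔ γ ((1 - δ)⁻¹ * r) ∈ P.sec h := fun r => by
    simp [Sol.inner, hγ, smul_smul]
  rw [rayeq (mass P h) _ R hR0.le (fun r h2 h3 => hmem r ⟨h2.le, h3.le⟩) hout,
    rayeq (energy P h) _ R hR0.le (fun r h2 h3 => hmem r ⟨h2.le, h3.le⟩) hout,
    rayeq (mass P h) _ ρ hρ0.le
      (fun r h2 h3 => by
        rw [hinner]
        refine hsec _ ⟨mul_nonneg (inv_nonneg.2 hδ1.le) h2.le, ?_⟩
        rw [inv_mul_lt_iff₀ hδ1]; exact h3)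
      (fun r h3 h' => by
        rw [hinner] at h'
        refine hout _ ?_ (P.sec_subset_csec h h')
        rw [lt_inv_mul_iff₀ hδ1]; exact h3)]
  -- data of the one-dimensional inequality
  set W := fun r => r ^ 2 * P.cut h (γ r) ^ 7 with hW
  set U1 := fun r => fderiv ℝ P.u (γ r) d with hU1
  set U2 := fun r => fderiv ℝ (fderiv ℝ P.u) (γ r) d d with hU2
  set φ₁ := fun r => -2 / r + 7 * U1 r / P.cut h (γ r) with hφ₁
  set φ₂ := fun r => 2 / r ^ 2 + 7 * (U2 r * P.cut h (γ r) + U1 r ^ 2) / P.cut h (γ r) ^ 2 with hφ₂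
  set f := fun r => tst P h (γ r) with hf
  set f₁ := fun r => fderiv ℝ (tst P h) (γ r) d with hf₁
  have hsm := P.smooth
  have hd1 : ContDiffOn ℝ (↑(⊤ : ℕ∞)) (fderiv ℝ P.u) P.Ω := hsm.fderiv_of_isOpen P.isOpen le_rfl
  have cV : ContinuousOn (fun r => P.cut h (γ r)) (Icc 0 R) :=
    (P.continuousOn_cut h).comp hγc.continuousOn hmaps
  have cU1 : ContinuousOn U1 (Icc 0 R) :=
    ((hsm.continuousOn_fderiv_of_isOpen P.isOpen (by norm_num)).comp hγc.continuousOn hmaps).clm_apply
      continuousOn_const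
  have cU2 : ContinuousOn U2 (Icc 0 R) :=
    (((hd1.continuousOn_fderiv_of_isOpen P.isOpen (by norm_num)).comp hγc.continuousOn hmaps).clm_apply
      continuousOn_const).clm_apply continuousOn_const
  have cf : ContinuousOn f (Icc 0 R) :=
    (contDiffOn_tst P h).continuousOn.comp hγc.continuousOn hmaps
  have cf₁ : ContinuousOn f₁ (Icc 0 R) :=
    (((contDiffOn_tst P h).continuousOn_fderiv_of_isOpen P.isOpen (by norm_num)).comp
      hγc.continuousOn hmaps).clm_apply continuousOn_const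
  have cW : ContinuousOn W (Icc 0 R) := (continuousOn_pow 2).mul (cV.pow 7)
  have cM : ContinuousOn (fun r => r ^ 2 * mass P h (γ r)) (Icc 0 R) :=
    (continuousOn_pow 2).mul ((continuousOn_mass P h).comp hγc.continuousOn hmaps)
  have cE : ContinuousOn (fun r => r ^ 2 * energy P h (γ r)) (Icc 0 R) :=
    (continuousOn_pow 2).mul ((continuousOn_energy P h).comp hγc.continuousOn hmaps)
  have dV : ∀ r ∈ Icc 0 R, HasDerivAt (fun r => P.cut h (γ r)) (-U1 r) r := fun r hr =>
    (((diffAt P hsm (hmaps hr)).hasFDerivAt.comp_hasDerivAt r (hγ' r)).const_sub h)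
  have dU1 : ∀ r ∈ Icc 0 R, HasDerivAt U1 (U2 r) r := fun r hr => by
    have hdd : DifferentiableAt ℝ (fderiv ℝ P.u) (γ r) :=
      ((hd1.differentiableOn (by norm_num)) _ (hmaps hr)).differentiableAt (P.isOpen.mem_nhds (hmaps hr))
    have := ((hdd.hasFDerivAt.comp_hasDerivAt r (hγ' r)).clm_apply (hasDerivAt_const r d))
    simpa [hU1, hU2, Function.comp_def] using this
  have hwf : ∀ r ∈ Icc 0 R, W r * f r ^ 2 = r ^ 2 * mass P h (γ r) := fun r hr => by
    simp only [hW, hf, tst, mass, mul_pow, Real.sq_sqrt (P.dt_pos (hmaps hr)).le]; ring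
  have hW0 : ∀ r ∈ Icc 0 R, 0 ≤ W r := fun r hr =>
    mul_nonneg (sq_nonneg _) (pow_nonneg (sub_nonneg.2 (hmem r hr).2) _)
  have hM0 : ∀ r ∈ Icc 0 R, 0 ≤ r ^ 2 * mass P h (γ r) := fun r hr => by
    rw [← hwf r hr]; exact mul_nonneg (hW0 r hr) (sq_nonneg _)
  have hE0 : ∀ r ∈ Icc 0 R, 0 ≤ r ^ 2 * energy P h (γ r) := fun r hr =>
    mul_nonneg (sq_nonneg _) (mul_nonneg (pow_nonneg (sub_nonneg.2 (hmem r hr).2) _)
      (div_nonneg (cdot_self_nonneg P (hmaps hr) _) (P.dt_pos (hmaps hr)).le))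
  set K := ∫ r in 0..ρ, r ^ 2 * mass P h (γ r) with hK
  set E := ∫ r in 0..R, r ^ 2 * energy P h (γ r) with hE
  set κ := 64 * 4 ^ 7 * δ with hκ
  have main : ∀ a b, 0 < a → a ≤ R / 4 → ρ ≤ b → b < R → R / 2 ≤ b →
      (1 - 2 * κ) * (∫ r in a..b, r ^ 2 * mass P h (γ r)) ≤ 1 / 7 * E + 2 * K := by
    intro a b ha ha4 hρb hbR hb2
    have hab : a < b := by linarith
    have haρ : a ≤ ρ := by rw [hρ]; nlinarith
    have hsub : Icc a b ⊆ Icc 0 R := Icc_subset_Icc ha.le hbR.le
    have hVpos : ∀ r ∈ Icc a b, 0 < P.cut h (γ r) := fun r hr =>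
      sub_pos.2 (hsec r ⟨ha.le.trans hr.1, hr.2.trans_lt hbR⟩).2
    have hpos : ∀ r ∈ Icc a b, 0 < r := fun r hr => ha.trans_le hr.1
    have hU2pos : ∀ r ∈ Icc a b, 0 < U2 r := fun r hr =>
      P252B.second_deriv_pos P.adm (hmaps (hsub hr)) fun h' => by
        rw [h', norm_zero] at hdn; exact one_ne_zero hdn.symm
    have hφpos : ∀ r ∈ Icc a b, 7 * U2 r / P.cut h (γ r) ≤ φ₂ r ∧ 0 < φ₂ r := by
      intro r hr
      have h2 := hVpos r hr
      have h3 := hU2pos r hr
      have h4 : φ₂ r = 7 * U2 r / P.cut h (γ r) + (2 / r ^ 2 + 7 * U1 r ^ 2 / P.cut h (γ r) ^ 2) := by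
        simp only [hφ₂]; field_simp; ring
      have h5 : 0 ≤ 2 / r ^ 2 + 7 * U1 r ^ 2 / P.cut h (γ r) ^ 2 := by positivity
      have h6 : 0 < 7 * U2 r / P.cut h (γ r) := by positivity
      constructor <;> linarith
    have hp := poincare (w := W) (φ₁ := φ₁) (φ₂ := φ₂) (f := f) (f₁ := f₁) hab
      (fun r hr => mul_pos (pow_pos (hpos r hr) 2) (pow_pos (hVpos r hr) 7))
      (fun r hr => by
        have h2 := hpos r hr
        have h3 := hVpos r hr
        refine ((hasDerivAt_pow 2 r).fun_mul ((dV r (hsub hr)).fun_pow 7)).congr_deriv ?_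
        simp only [hφ₁, hW]
        push_cast
        field_simp
        ring)
      (fun r hr => by
        have h2 := (hpos r hr).ne'
        have h3 := (hVpos r hr).ne'
        refine (((hasDerivAt_const r (-2 : ℝ)).fun_div (hasDerivAt_id r) h2).fun_add
          (((dU1 r (hsub hr)).const_mul 7).fun_div (dV r (hsub hr)) h3)).congr_deriv ?_
        simp only [hφ₂, id]
        field_simp
        ring)
      (fun r hr => (hφpos r hr).2)
      (by
        refine ((continuousOn_const.div (continuousOn_pow 2) fun r hr =>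
          (pow_ne_zero _ (hpos r hr).ne')).add ?_)
        exact ((continuousOn_const.mul ((((cU2.mono hsub)).mul (cV.mono hsub)).add
          ((cU1.mono hsub).pow 2))).div ((cV.mono hsub).pow 2) fun r hr =>
            pow_ne_zero _ (hVpos r hr).ne'))
      (fun r hr => (diffAt P (contDiffOn_tst P h) (hmaps (hsub hr))).hasFDerivAt.comp_hasDerivAt r (hγ' r))
      (cf₁.mono hsub)
    have int : ∀ {F : ℝ → ℝ} {p q : ℝ}, ContinuousOn F (Icc 0 R) → 0 ≤ p → p ≤ q → q ≤ R →
        IntervalIntegrable F volume p q := fun hF hp hpq hq =>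
      (hF.mono (Icc_subset_Icc hp hq)).intervalIntegrable_of_Icc hpq
    have mono : ∀ {F : ℝ → ℝ} {p q : ℝ}, ContinuousOn F (Icc 0 R) → (∀ r ∈ Icc 0 R, 0 ≤ F r) →
        0 ≤ p → p ≤ q → ∀ {p' q'}, 0 ≤ p' → p' ≤ p → q ≤ q' → q' ≤ R →
        (∫ r in p..q, F r) ≤ ∫ r in p'..q', F r := by
      intro F p q hF hF0 hp hpq p' q' hp' hpp hqq hq'
      refine intervalIntegral.integral_mono_interval hpp hpq hqq ?_
        (int hF hp' (hpp.trans (hpq.trans hqq)) hq')
      exact (ae_restrict_iff' measurableSet_Ioc).2 (Eventually.of_forall fun r hr =>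
        hF0 r ⟨hp'.trans hr.1.le, hr.2.trans hq'⟩)
    -- the right-hand side
    have hA : (∫ r in a..b, W r * f₁ r ^ 2 / φ₂ r) ≤ 1 / 7 * E := by
      refine le_trans (intervalIntegral.integral_mono_on
        (g := fun r => 1 / 7 * (r ^ 2 * energy P h (γ r))) hab.le ?_ ?_ ?_) ?_
      · refine ContinuousOn.intervalIntegrable_of_Icc hab.le ?_
        refine ((cW.mono hsub).mul ((cf₁.mono hsub).pow 2)).div ?_ fun r hr => (hφpos r hr).2.ne'
        refine ((continuousOn_const.div (continuousOn_pow 2) fun r hr =>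
          (pow_ne_zero _ (hpos r hr).ne')).add ?_)
        exact ((continuousOn_const.mul ((((cU2.mono hsub)).mul (cV.mono hsub)).add
          ((cU1.mono hsub).pow 2))).div ((cV.mono hsub).pow 2) fun r hr =>
            pow_ne_zero _ (hVpos r hr).ne')
      · exact (int cE ha.le hab.le hbR.le).const_mul _
      · intro r hr
        have h2 := hVpos r hr
        have h3 := hU2pos r hr
        obtain ⟨h4, h5⟩ := hφpos r hr
        set e := cdot P (fun i => pd (tst P h) i) (fun i => pd (tst P h) i) (γ r) / dt P.u (γ r)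
          with he
        have hcs : f₁ r ^ 2 ≤ U2 r * e := sq_apply_le P (hmaps (hsub hr)) (tst P h) d
        have he0 : 0 ≤ e := div_nonneg (cdot_self_nonneg P (hmaps (hsub hr)) _)
          (P.dt_pos (hmaps (hsub hr))).le
        calc W r * f₁ r ^ 2 / φ₂ r ≤ W r * (U2 r * e) / (7 * U2 r / P.cut h (γ r)) :=
              div_le_div₀ (mul_nonneg (hW0 r (hsub hr)) (mul_nonneg h3.le he0))
                (mul_le_mul_of_nonneg_left hcs (hW0 r (hsub hr))) (by positivity) h4
          _ = 1 / 7 * (r ^ 2 * energy P h (γ r)) := by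
              simp only [hW, energy, ← he]; field_simp
      · rw [intervalIntegral.integral_const_mul]
        exact mul_le_mul_of_nonneg_left (mono cE hE0 ha.le hab.le le_rfl ha.le hbR.le le_rfl)
          (by norm_num)
    rw [intervalIntegral.integral_congr (g := fun r => r ^ 2 * mass P h (γ r))
      (fun r hr => hwf r (hsub (by rwa [uIcc_of_le hab.le] at hr)))] at hp
    set Φ := ∫ r in a..b, r ^ 2 * mass P h (γ r) with hΦ
    set Z := ∫ r in a..b, W r with hZ
    have hwfc : ContinuousOn (fun r => W r * f r) (Icc 0 R) := cW.mul cf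
    have hm : (∫ r in a..b, W r * f r) = (∫ r in a..ρ, W r * f r) + ∫ r in ρ..b, W r * f r :=
      (intervalIntegral.integral_add_adjacent_intervals (int hwfc ha.le haρ hρR.le)
        (int hwfc hρ0.le hρb hbR.le)).symm
    -- the part inside
    have h2 : (∫ r in a..ρ, W r * f r) ^ 2 ≤ Z * K := by
      have hs : Icc a ρ ⊆ Icc 0 R := Icc_subset_Icc ha.le hρR.le
      refine (sq_integral_mul_le haρ (cW.mono hs) (cf.mono hs) fun r hr => hW0 r (hs hr)).trans ?_
      rw [intervalIntegral.integral_congr (g := fun r => r ^ 2 * mass P h (γ r))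
        (fun r hr => hwf r (hs (by rwa [uIcc_of_le haρ] at hr)))]
      exact mul_le_mul (mono cW hW0 ha.le haρ ha.le le_rfl hρb hbR.le)
        (mono cM hM0 ha.le haρ le_rfl ha.le le_rfl hρR.le)
        (intervalIntegral.integral_nonneg haρ fun r hr => hM0 r (hs hr))
        (intervalIntegral.integral_nonneg hab.le fun r hr => hW0 r (hsub hr))
    -- the part outside
    have h3 : (∫ r in ρ..b, W r * f r) ^ 2 ≤ κ * Z * Φ := by
      have hs : Icc ρ b ⊆ Icc 0 R := Icc_subset_Icc hρ0.le hbR.le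
      refine (sq_integral_mul_le hρb (cW.mono hs) (cf.mono hs) fun r hr => hW0 r (hs hr)).trans ?_
      rw [intervalIntegral.integral_congr (g := fun r => r ^ 2 * mass P h (γ r))
        (fun r hr => hwf r (hs (by rwa [uIcc_of_le hρb] at hr)))]
      have hup : (∫ r in ρ..b, W r) ≤ (R - ρ) * (R ^ 2 * h ^ 7) := by
        refine le_trans (intervalIntegral.integral_mono_on (g := fun _ => R ^ 2 * h ^ 7) hρb
          (int cW hρ0.le hρb hbR.le) intervalIntegrable_const fun r hr => ?_) ?_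
        · have hr' := hs hr
          exact mul_le_mul (pow_le_pow_left₀ hr'.1 hr'.2 2)
            (pow_le_pow_left₀ (sub_nonneg.2 (hmem r hr').2) (sub_le_self _ (P.nonneg (hmaps hr'))) 7)
            (pow_nonneg (sub_nonneg.2 (hmem r hr').2) _) (by positivity)
        · rw [intervalIntegral.integral_const, smul_eq_mul]
          exact mul_le_mul_of_nonneg_right (by linarith) (by positivity)
      have hlo : R / 4 * ((R / 4) ^ 2 * (h / 4) ^ 7) ≤ Z := by
        refine le_trans ?_ (mono cW hW0 (by linarith : 0 ≤ R / 4) (by linarith : R / 4 ≤ R / 2)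
          ha.le ha4 hb2 hbR.le)
        refine le_trans (le_of_eq ?_) (intervalIntegral.integral_mono_on
          (f := fun _ => (R / 4) ^ 2 * (h / 4) ^ 7) (by linarith : R / 4 ≤ R / 2)
          intervalIntegrable_const (int cW (by linarith) (by linarith) (by linarith)) fun r hr => ?_)
        · rw [intervalIntegral.integral_const, smul_eq_mul]; ring
        · have hr' : r ∈ Icc 0 R := ⟨by linarith [hr.1], by linarith [hr.2]⟩
          have h5 : r / R ≤ 1 / 2 := by rw [div_le_iff₀ hR0]; linarith [hr.2]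
          have h6 : h / 4 ≤ P.cut h (γ r) := le_trans (by nlinarith) (hV r hr')
          exact mul_le_mul (pow_le_pow_left₀ (by linarith) hr.1 2)
            (pow_le_pow_left₀ (by linarith) h6 7) (by positivity) (sq_nonneg _)
      have h7 : (∫ r in ρ..b, W r) ≤ κ * Z := by
        refine hup.trans (le_trans (le_of_eq ?_)
          (mul_le_mul_of_nonneg_left hlo (by rw [hκ]; positivity)))
        rw [hρ, hκ]; ring
      exact mul_le_mul h7 (mono cM hM0 hρ0.le hρb ha.le haρ le_rfl hbR.le)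
        (intervalIntegral.integral_nonneg hρb fun r hr => hM0 r (hs hr))
        ((intervalIntegral.integral_nonneg hρb fun r hr => hW0 r (hs hr)).trans h7)
    have hZ0 : 0 < Z := intervalIntegral.intervalIntegral_pos_of_pos_on (int cW ha.le hab.le hbR.le)
      (fun r hr => mul_pos (pow_pos (hpos r (Ioo_subset_Icc_self hr)) 2)
        (pow_pos (hVpos r (Ioo_subset_Icc_self hr)) 7)) hab
    have h4 : (∫ r in a..b, W r * f r) ^ 2 / Z ≤ 2 * K + 2 * κ * Φ := by
      rw [div_le_iff₀ hZ0, hm]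
      have := two_mul_le_add_sq (∫ r in a..ρ, W r * f r) (∫ r in ρ..b, W r * f r)
      calc _ ≤ 2 * (∫ r in a..ρ, W r * f r) ^ 2 + 2 * (∫ r in ρ..b, W r * f r) ^ 2 := by
            rw [add_sq]; linarith
        _ ≤ 2 * (Z * K) + 2 * (κ * Z * Φ) := by linarith
        _ = _ := by ring
    linarith
  -- the limit
  have hprim : ContinuousOn (fun t => ∫ r in 0..t, r ^ 2 * mass P h (γ r)) (Icc 0 R) := by
    have := intervalIntegral.continuousOn_primitive_interval (μ := volume) (a := (0 : ℝ)) (b := R)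
      (f := fun r => r ^ 2 * mass P h (γ r)) (by rw [uIcc_of_le hR0.le]; exact cM.integrableOn_Icc)
    rwa [uIcc_of_le hR0.le] at this
  have heps : Tendsto (fun n : ℕ => δ * (1 / ((n : ℝ) + 1))) atTop (𝓝 0) := by
    simpa using (tendsto_one_div_add_atTop_nhds_zero_nat (𝕜 := ℝ)).const_mul δ
  have heb : ∀ n : ℕ, 0 < δ * (1 / ((n : ℝ) + 1)) ∧ δ * (1 / ((n : ℝ) + 1)) ≤ δ := fun n =>
    ⟨by positivity, mul_le_of_le_one_right h0.le
      ((div_le_one (by positivity)).2 (le_add_of_nonneg_left n.cast_nonneg))⟩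
  have ta : Tendsto (fun n : ℕ => ∫ r in 0..(δ * (1 / ((n : ℝ) + 1)) * R), r ^ 2 * mass P h (γ r))
      atTop (𝓝 0) := by
    have := ((hprim 0 (left_mem_Icc.2 hR0.le)).tendsto.comp (tendsto_nhdsWithin_iff.2
      ⟨by simpa using heps.mul_const R, Eventually.of_forall fun n => ⟨mul_nonneg (heb n).1.le hR0.le,
        mul_le_of_le_one_left hR0.le ((heb n).2.trans (by linarith))⟩⟩))
    simpa [Function.comp_def] using this
  have tb : Tendsto (fun n : ℕ => ∫ r in 0..((1 - δ * (1 / ((n : ℝ) + 1))) * R), r ^ 2 * mass P h (γ r))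
      atTop (𝓝 (∫ r in 0..R, r ^ 2 * mass P h (γ r))) :=
    (hprim R (right_mem_Icc.2 hR0.le)).tendsto.comp (tendsto_nhdsWithin_iff.2
      ⟨by simpa using ((tendsto_const_nhds (x := (1 : ℝ))).sub heps).mul_const R,
        Eventually.of_forall fun n =>
          ⟨mul_nonneg (by linarith [(heb n).2]) hR0.le,
           mul_le_of_le_one_left hR0.le (by linarith [(heb n).1])⟩⟩)
  have hlim := (tb.sub ta).const_mul (1 - 2 * κ)
  rw [sub_zero] at hlim
  refine le_of_tendsto hlim (Eventually.of_forall fun n => ?_)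
  obtain ⟨e0, e1⟩ := heb n
  set t := δ * (1 / ((n : ℝ) + 1))
  have hab' : t * R ≤ (1 - t) * R := mul_le_mul_of_nonneg_right (by linarith) hR0.le
  rw [intervalIntegral.integral_interval_sub_left
    ((cM.mono (Icc_subset_Icc le_rfl (mul_le_of_le_one_left hR0.le (by linarith)))
      ).intervalIntegrable_of_Icc (mul_nonneg (by linarith) hR0.le))
    ((cM.mono (Icc_subset_Icc le_rfl (mul_le_of_le_one_left hR0.le (by linarith)))
      ).intervalIntegrable_of_Icc (mul_nonneg e0.le hR0.le))]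
  refine main _ _ (mul_pos e0 hR0) ?_ ?_ ?_ ?_
  · linarith [mul_le_mul_of_nonneg_right (show t ≤ 1 / 4 by linarith) hR0.le]
  · exact mul_le_mul_of_nonneg_right (by linarith) hR0.le
  · exact mul_lt_of_lt_one_left hR0 (by linarith)
  · linarith [mul_le_mul_of_nonneg_right (show (1 / 2 : ℝ) ≤ 1 - t by linarith) hR0.le]

/-- The radial half of the mass bound. -/
theorem radial : ∃ N δ : ℝ, 0 ≤ N ∧ 0 < δ ∧ δ < 1 ∧ ∀ (P : Sol) (h : ℝ), 0 < h → ∀ c ∈ P.sec h,
    P.u c ≤ h / 2 → (∫ x in P.sec h, P.cut h x ^ 17 * dt P.u x) ≤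
      N * ∫ x in P.inner h c δ, P.cut h x ^ 17 * dt P.u x := by
  refine ⟨200, (1 / 2) ^ 29, by norm_num, by norm_num, by norm_num, fun P h hh c hc huc => ?_⟩
  set δ : ℝ := (1 / 2) ^ 29 with hδ
  have h0 : 0 < δ := by norm_num [hδ]
  have h1 : δ ≤ 1 / 4 := by norm_num [hδ]
  clear_value δ
  have hK := P.isCompact_csec h
  have hms := hK.measurableSet
  have hsub : P.inner h c δ ⊆ P.csec h :=
    (P.inner_subset hc h0 (by linarith [h1] : δ < 1)).trans (P.sec_subset_csec h)
  have i1 : IntegrableOn (mass P h) (P.csec h) := integrableOn_csec P (continuousOn_mass P h) h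
  have i2 : IntegrableOn (energy P h) (P.csec h) := integrableOn_csec P (continuousOn_energy P h) h
  obtain ⟨r1, e1⟩ := polar c ((integrable_indicator_iff hms).2 i1)
  obtain ⟨r2, e2⟩ := polar c ((integrable_indicator_iff hms).2 i2)
  obtain ⟨r3, e3⟩ := polar c
    ((integrable_indicator_iff (P.isOpen_inner h c δ).measurableSet).2 (i1.mono_set hsub))
  rw [integral_indicator hms] at e1 e2
  rw [integral_indicator (P.isOpen_inner h c δ).measurableSet] at e3
  have hb := integral_mono (μ := σ₂) (r1.const_mul (1 - 2 * (64 * 4 ^ 7 * δ)))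
    ((r2.const_mul (1 / 7)).add (r3.const_mul 2)) (fun θ => ray_le P hh hc huc h0 h1 θ)
  simp only [Pi.add_apply] at hb
  rw [integral_add (r2.const_mul _) (r3.const_mul _), integral_const_mul, integral_const_mul,
    integral_const_mul, e1, e2, e3] at hb
  have hen : (∫ x in P.csec h, energy P h x) ≤ 1875 / 272 * ∫ x in P.csec h, mass P h x :=
    energy_le P h
  have hdiff : ∀ x ∈ P.csec h \ P.sec h, mass P h x = 0 := fun x hx => by
    have : P.u x = h := le_antisymm hx.1.2 (not_lt.1 fun h' => hx.2 ⟨hx.1.1, h'⟩)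
    simp [mass, Sol.cut, this]
  have hsec : (∫ x in P.sec h, mass P h x) = ∫ x in P.csec h, mass P h x :=
    (setIntegral_eq_of_subset_of_forall_sdiff_eq_zero hms (P.sec_subset_csec h) hdiff).symm
  have hI : 0 ≤ ∫ x in P.inner h c δ, mass P h x :=
    setIntegral_nonneg (P.isOpen_inner h c δ).measurableSet fun x hx =>
      mul_nonneg (pow_nonneg (sub_nonneg.2 (hsub hx).2) _) (P.dt_pos (hsub hx).1).le
  have hJ : 0 ≤ ∫ x in P.csec h, mass P h x := setIntegral_nonneg hms fun x hx =>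
    mul_nonneg (pow_nonneg (sub_nonneg.2 hx.2) _) (P.dt_pos hx.1).le
  show (∫ x in P.sec h, mass P h x) ≤ 200 * ∫ x in P.inner h c δ, mass P h x
  rw [hsec]
  norm_num [hδ] at hb hI ⊢
  linarith

/-- The mass bound with exponent `17`. -/
theorem massSpec : P252D.MassSpec 17 := by
  obtain ⟨N, δ, hN, h0, h1, hr⟩ := radial
  refine ⟨N * (32768 / δ ^ 3), fun P h hh => ?_⟩
  obtain ⟨c, hc, huc, hb⟩ := P.inner_bound 17 hh h0 h1
  refine (hr P h hh c hc huc).trans ((mul_le_mul_of_nonneg_left hb hN).trans (le_of_eq ?_))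
  ring

end Vale.Agent.P252M
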